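import Vale.Agent.P057IV.Plan
import Vale.Agent.P057MA.ExtF

/-!
New coordinates through one class.
-/

open Matrix Finset Real
open Vale.Agent.P057G Vale.Agent.P057MA Vale.Agent.P057IV

namespace Vale.Agent.P057PX

theorem extb (V : Type) [Fintype V] [DecidableEq V] : EXT V := by
  classical
  obtain ⟨c, hc⟩ := ext_forms2 (Fintype.card V)
  refine ⟨(2 * Fintype.card V + c + 4) * 7 + 1, ?_⟩
  intro ι _ _ S B b κ _ F T d0 Y Z h h' hY hYZ hF hb hT hd hd' hι hκ hM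
  set a := 2 * Fintype.card V + c + 4 with ha
  have hZ : 2 ≤ Z := hY.trans hYZ
  have hZ1 : 1 ≤ Z := by linarith
  have pw : ∀ {i j : ℕ}, i ≤ j → Z ^ i ≤ Z ^ j := fun hij => pow_le_pow_right₀ hZ1 hij
  have e2 : 2 * Z ≤ Z ^ 2 := by nlinarith
  have e4 : 3 * Z ^ 2 ≤ Z ^ 4 := by nlinarith
  have ec : (c : ℝ) ≤ Z ^ a := by
    refine le_trans ?_ ((pow_le_pow_left₀ zero_le_two hZ c).trans (pw (by omega)))
    exact_mod_cast Nat.lt_two_pow_self.le
  have ez : Z ≤ Z ^ a := le_self_pow₀ hZ1 (by omega)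
  have ea : ∀ {i : ℕ}, i ≤ 7 → (Z ^ a) ^ i + 2 * Z ≤ Z ^ (a * 7 + 1) := fun {i} hi => by
    have h1 : (Z ^ a) ^ i ≤ Z ^ (a * 7) := by rw [← pow_mul]; exact pw (by gcongr)
    have h2 : Z ^ 2 ≤ Z ^ (a * 7) := pw (by omega)
    have h3 : 0 ≤ Z ^ (a * 7) := by positivity
    rw [pow_succ Z (a * 7)]; nlinarith
  have d1 : (1 : ℝ) ≤ d0 := by exact_mod_cast hd
  have l1 : 1 ≤ d0 * exp Y := one_le_mul_of_one_le_of_one_le d1 (one_le_exp (by linarith))
  have l2 : d0 * exp Y ≤ exp (2 * Z) := by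
    rw [two_mul, exp_add]
    exact mul_le_mul (hd'.trans (exp_le_exp.2 hYZ)) (exp_le_exp.2 hYZ) (exp_pos _).le (exp_pos _).le
  have hN : ((⌈Z⌉₊ : ℝ) + 1) ^ Fintype.card V ≤ Z ^ a := by
    have := Nat.ceil_lt_add_one (by linarith : 0 ≤ Z)
    refine (pow_le_pow_left₀ (by positivity) (by linarith : _ ≤ Z ^ 2) _).trans ?_
    rw [← pow_mul]; exact pw (by omega)
  have z7 := ea le_rfl
  have z1 := ea (i := 1) (by norm_num)
  rw [pow_one] at z1
  obtain ⟨κ', _, _, e, d, lam, Gn, pn, M, a1, a2, a3, a4, a5, a6, a7, -, a8, a9⟩ :=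
    hc (S := dil S {b} (d0 * exp Y)) (fn := F) (T := fun z j => T j z) (B0 := {b}) (N := ⌈Z⌉₊)
      (Y := Y) (Z := Z ^ a) le_rfl (ok_dil h _ l1) (cen_dil h' _ _)
      (fun j => ⟨(hT j).on, (hT j).lin⟩)
      (fun j => ⟨b, mem_inter.2 ⟨(hF j).1, mem_singleton_self b⟩⟩) ec (by linarith) hκ
      (((by gcongr : 3 * Y ^ 2 ≤ 3 * Z ^ 2).trans e4).trans (pw (by omega)))
      (hι.trans (exp_le_exp.2 (hYZ.trans ez))) hN
      (Smo.dil h h' (exp_pos _) l1 (hM.mono h h' (cls_univ S) (cls_univ S) subset_rfl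
        (max_le (Nat.ceil_mono (by linarith)) (Nat.cast_le (α := ℝ).1
          (le_trans (by linarith) (Nat.le_ceil _)))) (by positivity)
        (by
          rw [card_singleton, pow_one]
          refine (mul_le_mul_of_nonneg_left l2 (exp_pos _).le).trans ?_
          rw [← exp_add]; exact exp_le_exp.2 z7)
        (exp_le_exp.2 (by linarith))))
  rw [dil_dil] at a5 a7 a9
  have d2 : (1 : ℝ) ≤ d := by exact_mod_cast a2
  have l3 : 1 ≤ d0 * exp Y * lam := one_le_mul_of_one_le_of_one_le l1 (d2.trans a3)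
  have k1 := ok_top (ok_dil h {b} l3) a5
  have k2 := cen_top (ok_dil h {b} l3) (cen_dil h' _ _) a5
  refine ⟨⟨b, d0 * d, d0 * exp Y * lam, κ', fun j => F (e j), Gn, pn⟩, d, rfl, rfl,
    ⟨hb, Nat.mul_pos hd a2, ?_, ?_, ?_, fun x => (hF _).1, fun x => (hF _).2, a5, ?_, a8⟩,
    a7.mono k1 k2 (cls_univ _) (cls_univ _) subset_rfl le_rfl (exp_pos _) (exp_le_exp.2 ez)
      (exp_le_exp.2 (by linarith)), fun r => ?_⟩
  · push_cast
    rw [mul_right_comm]
    exact mul_le_mul_of_nonneg_left a3 (by linarith)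
  · refine (mul_le_mul l2 a4 (by linarith) (exp_pos _).le).trans ?_
    rw [← exp_add]; exact exp_le_exp.2 (by linarith [ea (i := 6) (by norm_num)])
  · exact le_trans (by exact_mod_cast Fintype.card_le_of_injective e a1) hκ
  · refine a6.trans (exp_le_exp.2 ?_)
    have h1 := ea (i := 4) (by norm_num)
    have h2 : 2 ≤ Z ^ a := hZ.trans ez
    nlinarith [sq_nonneg ((Z ^ a) ^ 2 - 3)]
  · obtain ⟨b1, b2, b3⟩ := a9 r
    have hT' : Fm (dil S {b} (d0 * exp Y * lam)) (fce (dil S {b} (d0 * exp Y * lam)) (F r)) (F r)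
        (T r) := ⟨(hT r).on, (hT r).lin⟩
    refine ⟨_, b1, b2, Nle.down k1 (cls_fce _ _) (subset_univ _)
      ((hT'.inl.smul d).sub b1).on fun z hz => ?_⟩
    have : |T r (scl S {b} d (z ∘ Sum.inl)) - M z r| ≤ _ := b3 z hz
    rw [(hT r).scl, inter_singleton_of_mem (hF r).1, card_singleton, pow_one] at this
    exact this

end Vale.Agent.P057PX
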